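import Mathlib.Combinatorics.Matroid.Minor.Contract
import Mathlib.Combinatorics.Matroid.Closure

open Set
open scoped Matroid

namespace Vale.Agent.P068

/-- The pair `(M, N)` satisfies intersection: some common independent set `J` has a partition
`J = JM ∪ JN` with `cl_M(JM) ∪ cl_N(JN) = E`. -/
def SatisfiesIntersection {α : Type*} (M N : Matroid α) : Prop :=
  ∃ J JM JN : Set α, M.Indep J ∧ N.Indep J ∧ JM ∪ JN = J ∧ Disjoint JM JN ∧
    M.closure JM ∪ N.closure JN = M.E

/-- The family `M` on the common ground set `E` has a packing/covering partition `E = P ∪ C`. -/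
def HasPackingCovering {α ι : Type*} (E : Set α) (M : ι → Matroid α) : Prop :=
  ∃ (P C : Set α) (S I : ι → Set α), P ∪ C = E ∧ Disjoint P C ∧
    (∀ i, S i ⊆ P) ∧ (∀ i j, i ≠ j → Disjoint (S i) (S j)) ∧
    (∀ i, (M i ↾ P).closure (S i) = P) ∧
    (∀ i, I i ⊆ C ∧ (M i ／ P).Indep (I i)) ∧ (⋃ i, I i) = C

/-- A packing/covering partition for `(M, N✶)` yields intersection for `(M, N)`. -/
theorem satisfiesIntersection_of_packingCovering {α : Type*} (M N : Matroid α) (hE : M.E = N.E)
    (h : HasPackingCovering M.E (fun i : Bool => if i then M else N✶)) :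
    SatisfiesIntersection M N := by
  obtain ⟨P, C, S, I, hPC, hdis, hSP, hS, hcl, hI, hIC⟩ := h
  have hPE : P ⊆ M.E := hPC ▸ subset_union_left
  have hPN : P ⊆ N.E := hE ▸ hPE
  have hspM : (M ↾ P).Spanning (S true) := ⟨by simpa using hcl true, by simpa using hSP true⟩
  have hspN : (N✶ ↾ P).Spanning (S false) := ⟨by simpa using hcl false, by simpa using hSP false⟩
  obtain ⟨A, hA, hAS⟩ := hspM.exists_isBase_subset
  have hAP : M.IsBasis A P := (Matroid.isBase_restrict_iff hPE).1 hA
  have hI1 : (M ／ P).Indep (I true) := by simpa using (hI true).2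
  have hI2 : (N✶ ／ P).Indep (I false) := by simpa using (hI false).2
  have hCeq : C = N.E \ P := by
    rw [← hE, ← hPC, union_sdiff_cancel_left (disjoint_iff_inter_eq_empty.1 hdis).subset]
  have hK : (N ＼ P).Spanning (C \ I false) := by
    have h1 : ((N✶ ／ P)✶).Coindep (I false) := by
      rw [Matroid.coindep_def, Matroid.dual_dual]; exact hI2
    rw [Matroid.dual_contract, Matroid.dual_dual] at h1
    have h2 := h1.compl_spanning
    rwa [Matroid.delete_ground, ← hCeq] at h2
  obtain ⟨B, hB, hBK⟩ := hK.exists_isBase_subset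
  have hBC : N.IsBasis B C := by
    have := (Matroid.delete_isBase_iff).1 hB
    rwa [← hCeq] at this
  have hB1 : B ⊆ I true := by
    intro x hx
    obtain ⟨hxC, hxI⟩ := hBK hx
    rw [← hIC] at hxC
    obtain ⟨i, hi⟩ := mem_iUnion.1 hxC
    cases i
    · exact absurd hi hxI
    · exact hi
  have hAB : Disjoint A B := hdis.mono hAP.subset hBC.subset
  have hMJ : M.Indep (A ∪ B) := by
    have h3 := (hAP.contract_indep_iff).1 (hI1.subset hB1)
    rw [union_comm]
    exact h3.1
  have hAN : Disjoint A (S false) := (hS true false (by simp)).mono_left hAS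
  have hA' : (N ／ C).Indep A := by
    obtain ⟨T, hT, hTS⟩ := hspN.exists_isBase_subset
    have hdel : N✶ ↾ P = (N ／ C)✶ := by
      rw [Matroid.dual_contract, Matroid.delete_eq_restrict, Matroid.dual_ground, hCeq]
      congr 1
      rw [sdiff_sdiff_cancel_left hPN]
    rw [hdel] at hT
    have hgr : (N ／ C).E = P := by
      rw [Matroid.contract_ground, hCeq, sdiff_sdiff_cancel_left hPN]
    have hb := hT.compl_isBase_of_dual
    rw [hgr] at hb
    exact hb.indep.subset fun x hx => ⟨hAP.subset hx, fun h => hAN.le_bot ⟨hx, hTS h⟩⟩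
  have hNJ : N.Indep (A ∪ B) := (hBC.contract_indep_iff.1 hA').1
  refine ⟨A ∪ B, A, B, hMJ, hNJ, rfl, hAB, subset_antisymm ?_ ?_⟩
  · exact union_subset (M.closure_subset_ground A) (hE ▸ N.closure_subset_ground B)
  · rw [← hPC]
    exact union_subset_union hAP.subset_closure hBC.subset_closure

end Vale.Agent.P068
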