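import Mathlib.Combinatorics.Matroid.IndepAxioms
import Mathlib.Combinatorics.Matroid.Closure
import Mathlib.Data.Set.Card

open Set

namespace Vale.Agent.P068

variable {α : Type*}

/-- Independence determined by a family of representatives of base classes. -/
def IndF (𝔅 : Set (Set α)) (I : Set α) : Prop :=
  ∃ B ∈ 𝔅, (I \ B).Finite ∧ (I \ B).encard ≤ (B \ I).encard

/-- Spanning determined by a family of representatives of base classes. -/
def SpanF (𝔅 : Set (Set α)) (X : Set α) : Prop :=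
  ∃ B ∈ 𝔅, (B \ X).Finite ∧ (B \ X).encard ≤ (X \ B).encard

/-- Representatives are pairwise incomparable up to finite sets. -/
def Incomp (𝔅 : Set (Set α)) : Prop :=
  ∀ B ∈ 𝔅, ∀ C ∈ 𝔅, B ≠ C → (B \ C).Infinite

/-- Some base lies between `I` and `X`. -/
def Btw (𝔅 : Set (Set α)) (I X : Set α) : Prop :=
  ∃ B, I ⊆ B ∧ B ⊆ X ∧ IndF 𝔅 B ∧ SpanF 𝔅 B

lemma finite_diff_trans {A B C : Set α} (h₁ : (A \ B).Finite) (h₂ : (B \ C).Finite) :
    (A \ C).Finite :=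
  (h₁.union h₂).subset fun x hx => by
    by_cases hb : x ∈ B
    · exact Or.inr ⟨hb, hx.2⟩
    · exact Or.inl ⟨hx.1, hb⟩

lemma IndF.mono {𝔅 𝔅' : Set (Set α)} {I : Set α} (h : IndF 𝔅 I) (hs : 𝔅 ⊆ 𝔅') :
    IndF 𝔅' I := by
  obtain ⟨B, hB, h⟩ := h
  exact ⟨B, hs hB, h⟩

lemma SpanF.mono {𝔅 𝔅' : Set (Set α)} {I : Set α} (h : SpanF 𝔅 I) (hs : 𝔅 ⊆ 𝔅') :
    SpanF 𝔅' I := by
  obtain ⟨B, hB, h⟩ := h
  exact ⟨B, hs hB, h⟩

lemma Btw.mono {𝔅 𝔅' : Set (Set α)} {I X : Set α} (h : Btw 𝔅 I X) (hs : 𝔅 ⊆ 𝔅') :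
    Btw 𝔅' I X := by
  obtain ⟨B, h1, h2, h3, h4⟩ := h
  exact ⟨B, h1, h2, h3.mono hs, h4.mono hs⟩

lemma IndF.subset {𝔅 : Set (Set α)} {I J : Set α} (h : IndF 𝔅 J) (hIJ : I ⊆ J) :
    IndF 𝔅 I := by
  obtain ⟨B, hB, hfin, hle⟩ := h
  refine ⟨B, hB, hfin.subset (sdiff_subset_sdiff_left hIJ), ?_⟩
  exact (encard_le_encard (sdiff_subset_sdiff_left hIJ)).trans
    (hle.trans (encard_le_encard (sdiff_subset_sdiff_right hIJ)))

lemma Incomp.eq_of_finite {𝔅 : Set (Set α)} (h : Incomp 𝔅) {B C : Set α}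
    (hB : B ∈ 𝔅) (hC : C ∈ 𝔅) (hfin : (B \ C).Finite) : B = C := by
  by_contra hne
  exact h B hB C hC hne hfin

lemma not_indF_of_ssubset {𝔅 : Set (Set α)} (h : Incomp 𝔅) {I J : Set α}
    (hI : SpanF 𝔅 I) (hIJ : I ⊂ J) : ¬ IndF 𝔅 J := by
  rintro ⟨C, hC, hJfin, hJle⟩
  obtain ⟨B, hB, hIfin, hIle⟩ := hI
  have hBC : B = C := h.eq_of_finite hB hC <| (hIfin.union hJfin).subset fun x hx => by
    by_cases hx' : x ∈ I
    · exact Or.inr ⟨hIJ.subset hx', hx.2⟩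
    · exact Or.inl ⟨hx.1, hx'⟩
  subst hBC
  have s1 : I \ B ⊆ J \ B := sdiff_subset_sdiff_left hIJ.subset
  have s2 : B \ J ⊆ B \ I := sdiff_subset_sdiff_right hIJ.subset
  obtain ⟨e, heJ, heI⟩ := exists_of_ssubset hIJ
  by_cases heB : e ∈ B
  · have hlt : (B \ J).encard < (B \ I).encard :=
      (hIfin.subset s2).encard_lt_encard
        ((ssubset_iff_of_subset s2).2 ⟨e, ⟨heB, heI⟩, fun h => h.2 heJ⟩)
    exact lt_irrefl _ (((hJle.trans_lt hlt).trans_le hIle).trans_le (encard_le_encard s1))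
  · have hlt : (I \ B).encard < (J \ B).encard :=
      (hJfin.subset s1).encard_lt_encard
        ((ssubset_iff_of_subset s1).2 ⟨e, ⟨heJ, heB⟩, fun h => heI h.1⟩)
    exact lt_irrefl _ (((hJle.trans (encard_le_encard s2)).trans hIle).trans_lt hlt)

/-- The properties of a complete family that make it the base family of a uniform matroid. -/
structure Complete (𝔅 : Set (Set α)) : Prop where
  incomp : Incomp 𝔅
  dec : ∀ S, IndF 𝔅 S ∨ SpanF 𝔅 S
  btw : ∀ I X, I ⊆ X → IndF 𝔅 I → SpanF 𝔅 X → Btw 𝔅 I X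

lemma Complete.maximal_iff {𝔅 : Set (Set α)} (h : Complete 𝔅) {I : Set α} :
    Maximal (IndF 𝔅) I ↔ IndF 𝔅 I ∧ SpanF 𝔅 I := by
  constructor
  · intro hmax
    refine ⟨hmax.prop, ?_⟩
    have hu : SpanF 𝔅 univ := by
      obtain ⟨B, hB, -⟩ := hmax.prop
      exact ⟨B, hB, by simp, by simp⟩
    obtain ⟨B, hIB, -, hB, hBs⟩ := h.btw I univ (subset_univ _) hmax.prop hu
    rwa [hmax.eq_of_subset hB hIB]
  · rintro ⟨hI, hIs⟩
    refine ⟨hI, fun J hJ hIJ => ?_⟩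
    by_contra hne
    exact not_indF_of_ssubset h.incomp hIs ⟨hIJ, hne⟩ hJ

/-- The uniform matroid given by a complete family. -/
noncomputable def Complete.indepMatroid {𝔅 : Set (Set α)} (h : Complete 𝔅) : IndepMatroid α where
  E := univ
  Indep := IndF 𝔅
  indep_empty := by
    rcases h.dec ∅ with h' | ⟨B, hB, -⟩
    · exact h'
    · exact ⟨B, hB, by simp, by simp⟩
  indep_subset := fun _ _ hJ hIJ => hJ.subset hIJ
  indep_aug := by
    intro I B hI hnmax hBmax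
    have hB := h.maximal_iff.1 hBmax
    have hnot : ¬ SpanF 𝔅 I := fun hs => hnmax (h.maximal_iff.2 ⟨hI, hs⟩)
    have hu : SpanF 𝔅 (I ∪ B) := by
      obtain ⟨C, hC, hfin, hle⟩ := hB.2
      exact ⟨C, hC, hfin.subset (sdiff_subset_sdiff_right subset_union_right),
        (encard_le_encard (sdiff_subset_sdiff_right subset_union_right)).trans
          (hle.trans (encard_le_encard (sdiff_subset_sdiff_left subset_union_right)))⟩
    obtain ⟨C, hIC, hCX, hC, hCs⟩ := h.btw I (I ∪ B) subset_union_left hI hu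
    obtain ⟨x, hxC, hxI⟩ : ∃ x ∈ C, x ∉ I := by
      by_contra hh
      push Not at hh
      exact hnot ((subset_antisymm hIC hh) ▸ hCs)
    exact ⟨x, ⟨(hCX hxC).resolve_left hxI, hxI⟩, hC.subset (insert_subset hxC hIC)⟩
  indep_maximal := by
    intro X _ I hI hIX
    rcases h.dec X with hX | hX
    · exact ⟨X, hIX, ⟨hX, subset_rfl⟩, fun J hJ _ => hJ.2⟩
    · obtain ⟨B, hIB, hBX, hB, hBs⟩ := h.btw I X hIX hI hX
      exact ⟨B, hIB, ⟨hB, hBX⟩, fun J hJ hBJ => (h.maximal_iff.2 ⟨hB, hBs⟩).le_of_ge hJ.1 hBJ⟩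
  subset_ground := fun I _ => subset_univ I

lemma Complete.insert_indF {𝔅 : Set (Set α)} (h : Complete 𝔅) {I : Set α} (e : α)
    (hI : IndF 𝔅 I) (hns : ¬ SpanF 𝔅 I) : IndF 𝔅 (insert e I) := by
  rcases h.dec (insert e I) with h' | h'
  · exact h'
  · obtain ⟨B, hIB, hBX, hB, hBs⟩ := h.btw I (insert e I) (subset_insert _ _) hI h'
    by_cases he : e ∈ B
    · exact hB.subset (insert_subset he hIB)
    · have hBI : B = I := subset_antisymm (fun x hx => (hBX hx).resolve_left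
        (fun hxe => he (hxe ▸ hx))) hIB
      exact absurd (hBI ▸ hBs) hns

end Vale.Agent.P068
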