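import Vale.Agent.P068.Sep
import Mathlib.SetTheory.Cardinal.Aleph
import Mathlib.SetTheory.Cardinal.Continuum

open Set Cardinal

namespace Vale.Agent.P068

/-- A countable incomparable family of allowed representatives. -/
structure Good (σ : Sep) (𝔅 : Set (Set Loc)) : Prop where
  countable : 𝔅.Countable
  incomp : Incomp 𝔅
  allowed : ∀ B ∈ 𝔅, ¬ σ.DS B ∧ ¬ σ.FS B

variable {σ : Sep}

lemma indF_notD {𝔅 : Set (Set Loc)} (h : ∀ B ∈ 𝔅, ¬ σ.DS B) {I : Set Loc} (hI : IndF 𝔅 I) :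
    ¬ σ.DS I := by
  obtain ⟨B, hB, hfin, -⟩ := hI
  exact fun hD => h B hB (σ.DS_mono (small_of_finite hfin) hD)

lemma spanF_notF {𝔅 : Set (Set Loc)} (h : ∀ B ∈ 𝔅, ¬ σ.FS B) {X : Set Loc} (hX : SpanF 𝔅 X) :
    ¬ σ.FS X := by
  obtain ⟨B, hB, hfin, -⟩ := hX
  exact fun hF => h B hB (σ.FS_mono (small_of_finite hfin) hF)

lemma not_DS_empty : ¬ σ.DS ∅ := by
  intro h
  simp only [Sep.DS, qq_empty] at h
  exact σ.disj _ _ ⟨h, σ.bot⟩

lemma not_FS_univ : ¬ σ.FS univ := by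
  intro h
  simp only [Sep.FS, qq_univ] at h
  exact σ.disj _ _ ⟨σ.top, h⟩

lemma Good.insert {𝔅 : Set (Set Loc)} (h : Good σ 𝔅) {B : Set Loc} (hB : ¬ σ.DS B ∧ ¬ σ.FS B)
    (hinc : ∀ C ∈ 𝔅, (B \ C).Infinite ∧ (C \ B).Infinite) : Good σ (Set.insert B 𝔅) := by
  refine ⟨h.countable.insert B, ?_, ?_⟩
  · intro C hC C' hC' hne
    rcases hC with rfl | hC <;> rcases hC' with rfl | hC'
    · exact absurd rfl hne
    · exact (hinc C' hC').1
    · exact (hinc C hC).2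
    · exact h.incomp C hC C' hC' hne
  · rintro C (rfl | hC)
    · exact hB
    · exact h.allowed C hC

lemma exists_new_between {𝔅 : Set (Set Loc)} (hg : Good σ 𝔅) {I X : Set Loc} (hIX : I ⊆ X)
    (hI : ¬ σ.DS I) (hX : ¬ σ.FS X)
    (hA : ∀ C ∈ 𝔅, (X \ C).Infinite ∧ (C \ I).Infinite ∧
      ¬ ((I \ C).Finite ∧ (C \ X).Finite)) :
    ∃ B, I ⊆ B ∧ B ⊆ X ∧ (¬ σ.DS B ∧ ¬ σ.FS B) ∧
      ∀ C ∈ 𝔅, (B \ C).Infinite ∧ (C \ B).Infinite := by
  obtain ⟨B₀, h0I, h0X, h0D, h0F⟩ := σ.exists_between hIX hI hX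
  let ℋ := (fun C => (X \ I) \ C) '' {C ∈ 𝔅 | (I \ C).Finite}
  let 𝒦 := (fun C => (C ∩ X) \ I) '' {C ∈ 𝔅 | (C \ X).Finite}
  obtain ⟨H, K, hHG, hKG, hHK, hHs, hKs, hH, hK⟩ := exists_small_meeting (G := X \ I) ℋ 𝒦
    ((hg.countable.mono fun C hC => hC.1).image _) ((hg.countable.mono fun C hC => hC.1).image _)
    (by
      rintro _ ⟨C, ⟨hC, hfin⟩, rfl⟩ hfin'
      refine (hA C hC).1 ((hfin.union hfin').subset fun p hp => ?_)
      by_cases hpI : p ∈ I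
      · exact Or.inl ⟨hpI, hp.2⟩
      · exact Or.inr ⟨⟨hp.1, hpI⟩, hp.2⟩)
    (by
      rintro _ ⟨C, ⟨hC, hfin⟩, rfl⟩ hfin'
      refine (hA C hC).2.1 ((hfin.union hfin').subset fun p hp => ?_)
      by_cases hpX : p ∈ X
      · exact Or.inr ⟨⟨hp.1, hpX⟩, hp.2⟩
      · exact Or.inl ⟨hp.1, hpX⟩)
    (by rintro _ ⟨C, -, rfl⟩; exact sdiff_subset)
    (by rintro _ ⟨C, -, rfl⟩ p hp; exact ⟨hp.1.2, hp.2⟩)
  let B := (B₀ ∪ H) \ K
  have hsmall : Small (B \ B₀) ∧ Small (B₀ \ B) := by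
    refine ⟨hHs.subset ?_, hKs.subset ?_⟩
    · rintro p ⟨⟨h1 | h1, -⟩, h2⟩
      · exact absurd h1 h2
      · exact h1
    · rintro p ⟨h1, h2⟩
      by_contra hk
      exact h2 ⟨Or.inl h1, hk⟩
  refine ⟨B, fun p hp => ⟨Or.inl (h0I hp), fun h => (hKG h).2 hp⟩, ?_,
    ⟨fun h => h0D (σ.DS_mono hsmall.1 h), fun h => h0F (σ.FS_mono hsmall.2 h)⟩, fun C hC => ?_⟩
  · rintro p ⟨h1 | h1, -⟩
    · exact h0X h1
    · exact (hHG h1).1
  constructor
  · by_cases hfin : (I \ C).Finite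
    · refine (hH _ ⟨C, ⟨hC, hfin⟩, rfl⟩).mono ?_
      rintro p ⟨hp, -, hpC⟩
      exact ⟨⟨Or.inr hp, hHK.notMem_of_mem_left hp⟩, hpC⟩
    · exact Set.Infinite.mono (fun p hp =>
        ⟨⟨Or.inl (h0I hp.1), fun h => (hKG h).2 hp.1⟩, hp.2⟩) hfin
  · by_cases hfin : (C \ X).Finite
    · refine (hK _ ⟨C, ⟨hC, hfin⟩, rfl⟩).mono ?_
      rintro p ⟨hp, ⟨hpC, -⟩, -⟩
      exact ⟨hpC, fun h => h.2 hp⟩
    · refine Set.Infinite.mono (fun p hp => ⟨hp.1, fun h => hp.2 ?_⟩) hfin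
      rcases h.1 with h1 | h1
      · exact h0X h1
      · exact (hHG h1).1

lemma decide_set {𝔅 : Set (Set Loc)} (hg : Good σ 𝔅) (S : Set Loc) :
    ∃ 𝔅', 𝔅 ⊆ 𝔅' ∧ Good σ 𝔅' ∧ (IndF 𝔅' S ∨ SpanF 𝔅' S) := by
  by_cases hdec : IndF 𝔅 S ∨ SpanF 𝔅 S
  · exact ⟨𝔅, subset_rfl, hg, hdec⟩
  push Not at hdec
  have hinc : ∀ C ∈ 𝔅, (S \ C).Infinite ∧ (C \ S).Infinite := by
    intro C hC
    constructor <;> intro hfin
    · have h1 : (C \ S).encard < (S \ C).encard := by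
        by_contra hh
        exact hdec.1 ⟨C, hC, hfin, not_lt.1 hh⟩
      exact hdec.2 ⟨C, hC,
        encard_lt_top_iff.1 (h1.trans hfin.encard_lt_top), h1.le⟩
    · have h1 : (S \ C).encard < (C \ S).encard := by
        by_contra hh
        exact hdec.2 ⟨C, hC, hfin, not_lt.1 hh⟩
      exact hdec.1 ⟨C, hC,
        encard_lt_top_iff.1 (h1.trans hfin.encard_lt_top), h1.le⟩
  by_cases hall : ¬ σ.DS S ∧ ¬ σ.FS S
  · exact ⟨_, subset_insert _ _, hg.insert hall hinc, Or.inl ⟨S, mem_insert _ _, by simp, by simp⟩⟩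
  by_cases hF : σ.FS S
  · have hD : ¬ σ.DS S := fun h => σ.disj _ _ ⟨h, hF⟩
    obtain ⟨B, hSB, -, hB, hBinc⟩ := exists_new_between hg (subset_univ S) hD not_FS_univ
      (fun C hC => ⟨fun hfin => (hg.allowed C hC).1 (σ.DS_mono (small_of_finite hfin)
          (by simpa [Sep.DS, qq_univ] using σ.top)),
        (hinc C hC).2, fun h => (hinc C hC).1 h.1⟩)
    refine ⟨_, subset_insert _ _, hg.insert hB hBinc, Or.inl ⟨B, mem_insert _ _, ?_, ?_⟩⟩
    · simp [sdiff_eq_empty.2 hSB]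
    · simp [sdiff_eq_empty.2 hSB]
  · obtain ⟨B, -, hBS, hB, hBinc⟩ := exists_new_between hg (empty_subset S) not_DS_empty hF
      (fun C hC => ⟨(hinc C hC).1, fun hfin => (hg.allowed C hC).2
          (σ.FS_mono (small_of_finite hfin) (by simpa [Sep.FS, qq_empty] using σ.bot)),
        fun h => (hinc C hC).2 h.2⟩)
    refine ⟨_, subset_insert _ _, hg.insert hB hBinc, Or.inr ⟨B, mem_insert _ _, ?_, ?_⟩⟩
    · simp [sdiff_eq_empty.2 hBS]
    · simp [sdiff_eq_empty.2 hBS]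

lemma btw_of_class {𝔅 : Set (Set Loc)} {I X C : Set Loc} (hIX : I ⊆ X) (hC : C ∈ 𝔅)
    (ha : (I \ C).Finite) (hb : (C \ X).Finite) (hale : (I \ C).encard ≤ (C \ I).encard)
    (hble : (C \ X).encard ≤ (X \ C).encard) : Btw 𝔅 I X := by
  suffices ∃ B, I ⊆ B ∧ B ⊆ X ∧ (B \ C).Finite ∧ (C \ B).Finite ∧
      (B \ C).encard = (C \ B).encard by
    obtain ⟨B, h1, h2, h3, h4, h5⟩ := this
    exact ⟨B, h1, h2, ⟨C, hC, h3, h5.le⟩, ⟨C, hC, h4, h5.ge⟩⟩
  obtain ⟨a, hae⟩ := ha.exists_encard_eq_coe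
  obtain ⟨b, hbe⟩ := hb.exists_encard_eq_coe
  rcases le_total b a with hle | hle
  · have hsplit : (C \ I).encard ≤ (C \ X).encard + ((C ∩ X) \ I).encard :=
      le_trans (encard_le_encard fun p hp => by
        by_cases hp' : p ∈ X
        · exact Or.inr ⟨⟨hp.1, hp'⟩, hp.2⟩
        · exact Or.inl ⟨hp.1, hp'⟩) (encard_union_le _ _)
    have hk : ((a - b : ℕ) : ℕ∞) ≤ ((C ∩ X) \ I).encard := by
      have h := hale.trans hsplit
      rw [hae, hbe] at h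
      cases hc : ((C ∩ X) \ I).encard using ENat.recTopCoe with
      | top => exact le_top
      | coe c => rw [hc] at h; norm_cast at h ⊢; omega
    obtain ⟨R, hR, hRe⟩ := exists_subset_encard_eq hk
    refine ⟨((C ∩ X) ∪ I) \ R, fun p hp => ⟨Or.inr hp, fun h => (hR h).2 hp⟩, ?_, ?_⟩
    · rintro p ⟨h | h, -⟩
      · exact h.2
      · exact hIX h
    have e1 : (((C ∩ X) ∪ I) \ R) \ C = I \ C := by
      ext p
      constructor
      · rintro ⟨⟨h | h, -⟩, hn⟩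
        · exact absurd h.1 hn
        · exact ⟨h, hn⟩
      · intro h
        exact ⟨⟨Or.inr h.1, fun h' => h.2 (hR h').1.1⟩, h.2⟩
    have e2 : C \ (((C ∩ X) ∪ I) \ R) = (C \ X) ∪ R := by
      ext p
      constructor
      · rintro ⟨hp, hn⟩
        by_cases hp' : p ∈ X
        · by_contra hh
          exact hn ⟨Or.inl ⟨hp, hp'⟩, fun h => hh (Or.inr h)⟩
        · exact Or.inl ⟨hp, hp'⟩
      · rintro (h | h)
        · exact ⟨h.1, fun h' => h'.1.elim (fun h'' => h.2 h''.2) (fun h'' => h.2 (hIX h''))⟩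
        · exact ⟨(hR h).1.1, fun h' => h'.2 h⟩
    rw [e1, e2]
    have hRfin : R.Finite := finite_of_encard_eq_coe hRe
    refine ⟨ha, hb.union hRfin, ?_⟩
    rw [encard_union_eq (Set.disjoint_left.2 fun p h h' => h.2 (hR h').1.2), hae, hbe, hRe]
    norm_cast
    omega
  · have hsplit : (X \ C).encard ≤ (I \ C).encard + ((X \ C) \ I).encard :=
      le_trans (encard_le_encard fun p hp => by
        by_cases hp' : p ∈ I
        · exact Or.inl ⟨hp', hp.2⟩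
        · exact Or.inr ⟨hp, hp'⟩) (encard_union_le _ _)
    have hk : ((b - a : ℕ) : ℕ∞) ≤ ((X \ C) \ I).encard := by
      have h := hble.trans hsplit
      rw [hae, hbe] at h
      cases hc : ((X \ C) \ I).encard using ENat.recTopCoe with
      | top => exact le_top
      | coe c => rw [hc] at h; norm_cast at h ⊢; omega
    obtain ⟨R, hR, hRe⟩ := exists_subset_encard_eq hk
    refine ⟨((C ∩ X) ∪ I) ∪ R, fun p hp => Or.inl (Or.inr hp), ?_, ?_⟩
    · rintro p ((h | h) | h)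
      · exact h.2
      · exact hIX h
      · exact (hR h).1.1
    have e1 : (((C ∩ X) ∪ I) ∪ R) \ C = (I \ C) ∪ R := by
      ext p
      constructor
      · rintro ⟨(h | h) | h, hn⟩
        · exact absurd h.1 hn
        · exact Or.inl ⟨h, hn⟩
        · exact Or.inr h
      · rintro (h | h)
        · exact ⟨Or.inl (Or.inr h.1), h.2⟩
        · exact ⟨Or.inr h, (hR h).1.2⟩
    have e2 : C \ (((C ∩ X) ∪ I) ∪ R) = C \ X := by
      ext p
      constructor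
      · rintro ⟨hp, hn⟩
        exact ⟨hp, fun h => hn (Or.inl (Or.inl ⟨hp, h⟩))⟩
      · rintro ⟨hp, hn⟩
        refine ⟨hp, ?_⟩
        rintro ((h | h) | h)
        · exact hn h.2
        · exact hn (hIX h)
        · exact (hR h).1.2 hp
    rw [e1, e2]
    have hRfin : R.Finite := finite_of_encard_eq_coe hRe
    refine ⟨ha.union hRfin, hb, ?_⟩
    rw [encard_union_eq (Set.disjoint_left.2 fun p h h' => (hR h').2 h.1), hae, hbe, hRe]
    norm_cast
    omega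

/-- What one step of the recursion has to achieve for a pair. -/
def Achieve (𝔅 : Set (Set Loc)) (I X : Set Loc) : Prop :=
  (IndF 𝔅 I ∨ SpanF 𝔅 I) ∧ (IndF 𝔅 X ∨ SpanF 𝔅 X) ∧
    (I ⊆ X → IndF 𝔅 I → SpanF 𝔅 X → Btw 𝔅 I X)

lemma achieve_step {𝔅 : Set (Set Loc)} (hg : Good σ 𝔅) (I X : Set Loc) :
    ∃ 𝔅', 𝔅 ⊆ 𝔅' ∧ Good σ 𝔅' ∧ Achieve 𝔅' I X := by
  obtain ⟨𝔅₁, h1, hg1, hd1⟩ := decide_set hg I
  obtain ⟨𝔅₂, h2, hg2, hd2⟩ := decide_set hg1 X
  have hd1' : IndF 𝔅₂ I ∨ SpanF 𝔅₂ I := hd1.imp (fun h => h.mono h2) fun h => h.mono h2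
  by_cases hcase : I ⊆ X ∧ IndF 𝔅₂ I ∧ SpanF 𝔅₂ X
  swap
  · exact ⟨𝔅₂, h1.trans h2, hg2, hd1', hd2, fun a b c => absurd ⟨a, b, c⟩ hcase⟩
  obtain ⟨hIX, hI, hX⟩ := hcase
  obtain ⟨C0, hC0, hC0f, hC0le⟩ := hI
  obtain ⟨C1, hC1, hC1f, hC1le⟩ := hX
  by_cases hC : ∃ C ∈ 𝔅₂, (I \ C).Finite ∧ (C \ X).Finite
  · obtain ⟨C, hC, ha, hb⟩ := hC
    refine ⟨𝔅₂, h1.trans h2, hg2, hd1', hd2, fun _ _ _ => btw_of_class hIX hC ha hb ?_ ?_⟩
    · by_cases hinf : (C \ I).Finite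
      · obtain rfl := hg2.incomp.eq_of_finite hC hC0 (finite_diff_trans hinf hC0f)
        exact hC0le
      · simp [Set.encard_eq_top hinf]
    · by_cases hinf : (X \ C).Finite
      · obtain rfl := hg2.incomp.eq_of_finite hC1 hC (finite_diff_trans hC1f hinf)
        exact hC1le
      · simp [Set.encard_eq_top hinf]
  · obtain ⟨B, hIB, hBX, hB, hBinc⟩ := exists_new_between hg2 hIX
      (indF_notD (fun B hB => (hg2.allowed B hB).1) ⟨C0, hC0, hC0f, hC0le⟩)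
      (spanF_notF (fun B hB => (hg2.allowed B hB).2) ⟨C1, hC1, hC1f, hC1le⟩)
      (fun C hC' => ⟨fun hfin => hC ⟨C, hC', hfin.subset (sdiff_subset_sdiff_left hIX), by
          obtain rfl := hg2.incomp.eq_of_finite hC1 hC' (finite_diff_trans hC1f hfin)
          exact hC1f⟩,
        fun hfin => hC ⟨C, hC', by
          obtain rfl := hg2.incomp.eq_of_finite hC' hC0 (finite_diff_trans hfin hC0f)
          exact hC0f,
          hfin.subset (sdiff_subset_sdiff_right hIX)⟩,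
        fun h => hC ⟨C, hC', h.1, h.2⟩⟩)
    have hs : 𝔅₂ ⊆ Set.insert B 𝔅₂ := subset_insert _ _
    exact ⟨Set.insert B 𝔅₂, (h1.trans h2).trans hs, hg2.insert hB hBinc,
      hd1'.imp (fun h => h.mono hs) (fun h => h.mono hs),
      hd2.imp (fun h => h.mono hs) (fun h => h.mono hs),
      fun _ _ _ => ⟨B, hIB, hBX, ⟨B, mem_insert _ _, by simp, by simp⟩,
        ⟨B, mem_insert _ _, by simp, by simp⟩⟩⟩

/-- Under the continuum hypothesis every separation is realised by a uniform matroid. -/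
lemma exists_complete (hCH : (𝔠 : Cardinal.{0}) = ℵ₁) (σ : Sep) :
    ∃ 𝔅 : Set (Set Loc), Complete 𝔅 ∧ ∀ B ∈ 𝔅, ¬ σ.DS B ∧ ¬ σ.FS B := by
  classical
  let τ := Set Loc × Set Loc
  have hτ : #τ = ℵ₁ := by
    rw [← hCH]
    simp [τ, Cardinal.mk_set]
  obtain ⟨r, wo, hr⟩ := Cardinal.exists_ord_eq τ
  have hcount : ∀ t, {s | r s t}.Countable := by
    intro t
    have h1 := Ordinal.typein_lt_type r t
    rw [← hr, Cardinal.lt_ord, hτ, Ordinal.card_typein, ← succ_aleph0, Order.lt_succ_iff] at h1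
    exact Cardinal.mk_le_aleph0_iff.1 h1 |> fun h => Set.countable_coe_iff.1 h
  have hnext : ∀ (t : τ) (P : Set (Set Loc)), ∃ P', P ⊆ P' ∧
      (Good σ P → Good σ P' ∧ Achieve P' t.1 t.2) := by
    intro t P
    by_cases hP : Good σ P
    · obtain ⟨P', h1, h2, h3⟩ := achieve_step hP t.1 t.2
      exact ⟨P', h1, fun _ => ⟨h2, h3⟩⟩
    · exact ⟨P, subset_rfl, fun h => absurd h hP⟩
  choose nxt hsub hnxt using hnext
  let G : τ → Set (Set Loc) := wo.wf.fix fun t g => nxt t (⋃ s, ⋃ h : r s t, g s h)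
  have hG : ∀ t, G t = nxt t (⋃ s, ⋃ _ : r s t, G s) := fun t => wo.wf.fix_eq _ t
  have hmono : ∀ s t, r s t → G s ⊆ G t := by
    intro s t hst
    rw [hG t]
    exact subset_trans (subset_iUnion₂ (s := fun s (_ : r s t) => G s) s hst) (hsub t _)
  have hdir : ∀ s t, ∃ u, (u = s ∨ u = t) ∧ G s ⊆ G u ∧ G t ⊆ G u := by
    intro s t
    rcases trichotomous_of r s t with h | rfl | h
    · exact ⟨t, Or.inr rfl, hmono _ _ h, subset_rfl⟩
    · exact ⟨s, Or.inl rfl, subset_rfl, subset_rfl⟩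
    · exact ⟨s, Or.inl rfl, subset_rfl, hmono _ _ h⟩
  have hgood : ∀ t, Good σ (G t) ∧ Achieve (G t) t.1 t.2 := by
    intro t
    induction t using wo.wf.induction with
    | _ t ih =>
      rw [hG t]
      refine hnxt t _ ⟨(hcount t).biUnion fun s hs => (ih s hs).1.countable, ?_, ?_⟩
      · intro B hB C hC hne
        simp only [mem_iUnion] at hB hC
        obtain ⟨s, hs, hB⟩ := hB
        obtain ⟨s', hs', hC⟩ := hC
        obtain ⟨u, hu, h1, h2⟩ := hdir s s'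
        have : r u t := by rcases hu with rfl | rfl <;> assumption
        exact (ih u this).1.incomp B (h1 hB) C (h2 hC) hne
      · intro B hB
        simp only [mem_iUnion] at hB
        obtain ⟨s, hs, hB⟩ := hB
        exact (ih s hs).1.allowed B hB
  refine ⟨⋃ t, G t, ⟨?_, fun S => ?_, fun I X hIX hI hX => ?_⟩, fun B hB => ?_⟩
  · intro B hB C hC hne
    obtain ⟨s, hB⟩ := mem_iUnion.1 hB
    obtain ⟨s', hC⟩ := mem_iUnion.1 hC
    obtain ⟨u, -, h1, h2⟩ := hdir s s'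
    exact (hgood u).1.incomp B (h1 hB) C (h2 hC) hne
  · exact (hgood (S, S)).2.1.imp (fun h => h.mono (subset_iUnion G _))
      fun h => h.mono (subset_iUnion G _)
  · obtain ⟨hdI, hdX, hb⟩ := (hgood (I, X)).2
    have hs := subset_iUnion G (I, X)
    rcases hdI with hI' | hI'
    · rcases hdX with hX' | hX'
      · exact ⟨X, hIX, subset_rfl, hX'.mono hs, hX⟩
      · exact (hb hIX hI' hX').mono hs
    · exact ⟨I, subset_rfl, hIX, hI, hI'.mono hs⟩
  · obtain ⟨s, hB⟩ := mem_iUnion.1 hB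
    exact (hgood s).1.allowed B hB

end Vale.Agent.P068
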