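import Vale.Agent.P068.Rank
import Vale.Agent.P068.Stage
import Mathlib.Combinatorics.Matroid.Sum
import Vale.Agent.P068.Defs

open Set

namespace Vale.Agent.P068

/-- The vertices of a two-way infinite path: the centre and two rays. -/
abbrev Vertex : Type := Option (Bool × ℕ)

/-- The ground set: the two ends of the elements of all bundles. -/
abbrev Elt : Type := Vertex × Loc

/-- The other end. -/
def mate : Elt → Elt
  | (none, (s, x)) => (some (s, 0), (false, x))
  | (some (s, n), (c, x)) =>
    bif c then (some (s, n + 1), (false, x))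
    else Nat.casesOn n (none, (s, x)) (fun m => (some (s, m), (true, x)))

lemma mate_mate (e : Elt) : mate (mate e) = e := by
  rcases e with ⟨_ | ⟨s, n⟩, c, x⟩
  · rfl
  · cases c
    · cases n <;> rfl
    · rfl

/-- A chosen end of each pair. -/
def chosenEnd : Elt → Prop
  | (none, _) => True
  | (some _, (c, _)) => c = true

lemma chosenEnd_mate (e : Elt) : chosenEnd (mate e) ↔ ¬ chosenEnd e := by
  rcases e with ⟨_ | ⟨s, n⟩, c, x⟩
  · simp [mate, chosenEnd]
  · cases c
    · cases n <;> simp [mate, chosenEnd]
    · simp [mate, chosenEnd]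

/-- The sum of the rank one matroids on the pairs. -/
def pairIndep (I : Set Elt) : Prop := ∀ e ∈ I, mate e ∉ I

lemma maximal_pairIndep {X I : Set Elt} (hI : pairIndep I) (hIX : I ⊆ X) :
    ∃ J, I ⊆ J ∧ Maximal (fun K => pairIndep K ∧ K ⊆ X) J := by
  let J := I ∪ {e | e ∈ X ∧ e ∉ I ∧ mate e ∉ I ∧ (chosenEnd e ∨ mate e ∉ X)}
  refine ⟨J, subset_union_left, ⟨?_, union_subset hIX fun e he => he.1⟩, ?_⟩
  · rintro e (he | he) (hm | hm)
    · exact hI e he hm
    · exact hm.2.2.1 (by rwa [mate_mate])
    · exact he.2.2.1 hm
    · rcases he.2.2.2 with h | h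
      · rcases hm.2.2.2 with h' | h'
        · exact (chosenEnd_mate e).1 h' h
        · exact h' (by rw [mate_mate]; exact he.1)
      · exact h hm.1
  · rintro K ⟨hK, hKX⟩ hJK e he
    by_contra hne
    have hmI : mate e ∉ I := fun h => hK e he (hJK (Or.inl h))
    have heI : e ∉ I := fun h => hne (Or.inl h)
    by_cases hc : chosenEnd e ∨ mate e ∉ X
    · exact hne (Or.inr ⟨hKX he, heI, hmI, hc⟩)
    · push Not at hc
      exact hK e he (hJK (Or.inr ⟨hc.2, hmI, by rwa [mate_mate],
        Or.inl ((chosenEnd_mate e).2 hc.1)⟩))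

/-- The sum of `U_{1,2}` over all pairs. -/
def pairMatroid : IndepMatroid Elt where
  E := univ
  Indep := pairIndep
  indep_empty := fun e he => (notMem_empty e he).elim
  indep_subset := fun _ _ hJ hIJ e he h => hJ e (hIJ he) (hIJ h)
  indep_aug := by
    intro I B hI hnmax hB
    obtain ⟨K, hK, hIK, e, heK, heI⟩ : ∃ K, pairIndep K ∧ I ⊆ K ∧ ∃ e ∈ K, e ∉ I := by
      simp only [Maximal, not_and, not_forall] at hnmax
      obtain ⟨K, hK, hIK, hne⟩ := hnmax hI
      obtain ⟨e, he⟩ := not_subset.1 hne
      exact ⟨K, hK, hIK, e, he⟩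
    have hmI : mate e ∉ I := fun h => hK e heK (hIK h)
    have hmem : e ∈ B ∨ mate e ∈ B := by
      by_contra hh
      push Not at hh
      have hne : mate e ≠ e := fun h => hK e heK (h.symm ▸ heK)
      have : pairIndep (insert e B) := by
        intro f hf hmf
        rcases hf with rfl | hf <;> rcases hmf with h | h
        · exact hne h
        · exact hh.2 h
        · exact hh.2 (by rw [← h, mate_mate]; exact hf)
        · exact hB.prop f hf h
      exact hh.1 (hB.2 this (subset_insert e B) (mem_insert e B))
    obtain ⟨f, hfB, hfI, hfmI⟩ : ∃ f ∈ B, f ∉ I ∧ mate f ∉ I := by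
      rcases hmem with h | h
      · exact ⟨e, h, heI, hmI⟩
      · exact ⟨mate e, h, hmI, by rwa [mate_mate]⟩
    refine ⟨f, ⟨hfB, hfI⟩, ?_⟩
    rintro g (rfl | hg) (h | h)
    · exact hB.prop _ hfB (h.symm ▸ hfB)
    · exact hfmI h
    · exact hfmI (by rw [← h, mate_mate]; exact hg)
    · exact hI g hg h
  indep_maximal := fun X _ I hI hIX => maximal_pairIndep hI hIX
  subset_ground := fun I _ => subset_univ I

/-- The elements of a set at one vertex. -/
def slice (S : Set Elt) (v : Vertex) : Set Loc := {p | (v, p) ∈ S}

variable {fam : Vertex → Set (Set Loc)} (hfam : ∀ v, Complete (fam v))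

/-- The sum of the uniform matroids at the vertices. -/
noncomputable def vertexMatroid : Matroid Elt :=
  Matroid.sum' fun v => (hfam v).indepMatroid.matroid

lemma vertexMatroid_indep (S : Set Elt) :
    (vertexMatroid hfam).Indep S ↔ ∀ v, IndF (fam v) (slice S v) := by
  rw [vertexMatroid, Matroid.sum'_indep_iff]
  rfl

lemma vertexMatroid_ground : (vertexMatroid hfam).E = univ := by
  ext ⟨v, p⟩
  simp [vertexMatroid, Complete.indepMatroid]

lemma mem_closure_vertexMatroid {S : Set Elt} {e : Elt} (hS : (vertexMatroid hfam).Indep S)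
    (he : e ∈ (vertexMatroid hfam).closure S) : e ∈ S ∨ SpanF (fam e.1) (slice S e.1) := by
  classical
  by_contra hh
  push Not at hh
  obtain ⟨v, p⟩ := e
  refine hh.1 ((hS.mem_closure_iff'.1 he).2 ?_)
  rw [vertexMatroid_indep] at hS ⊢
  intro w
  by_cases hw : w = v
  · subst hw
    refine ((hfam w).insert_indF p (hS w) hh.2).subset fun q hq => ?_
    rcases hq with hq | hq
    · exact Or.inl (Prod.ext_iff.1 hq).2
    · exact Or.inr hq
  · refine (hS w).subset fun q hq => ?_
    rcases hq with hq | hq
    · exact absurd (Prod.ext_iff.1 hq).1 hw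
    · exact hq

lemma mem_closure_pairMatroid {S : Set Elt} {e : Elt} (hS : pairIndep S)
    (he : e ∈ pairMatroid.matroid.closure S) : e ∈ S ∨ mate e ∈ S := by
  by_contra hh
  push Not at hh
  have hS' : pairMatroid.matroid.Indep S := hS
  refine hh.1 ((hS'.mem_closure_iff'.1 he).2 ?_)
  show pairIndep (insert e S)
  rintro f (rfl | hf) (h | h)
  · rcases e' : f with ⟨_ | ⟨s, n⟩, c, x⟩
    · subst e'; simp [mate] at h
    · subst e'
      cases c <;> cases n <;> simp [mate] at h
  · exact hh.2 h
  · exact hh.2 (by rw [← h, mate_mate]; exact hf)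
  · exact hS f hf h

lemma fib_compl_mem {A B : Set Loc} {c c' : Bool}
    (h : ∀ x : ℕ × ℕ, (c, x) ∈ A ↔ (c', x) ∉ B) : qq A c = (qq B c')ᶜ := by
  ext n
  have : fib A c n = (fib B c' n)ᶜ := by
    ext i
    exact h (n, i)
  simp only [qq, mem_compl_iff]
  change fib A c n ∈ U ↔ ¬ fib B c' n ∈ U
  rw [this]
  exact compl_mem_U

lemma qq_subset_compl {A B : Set Loc} {c c' : Bool}
    (h : ∀ x : ℕ × ℕ, (c, x) ∈ A → (c', x) ∉ B) : qq A c ⊆ (qq B c')ᶜ := by
  intro n hn hn'
  exact finite_notMem_U finite_empty
    (Filter.mem_of_superset (Filter.inter_mem hn hn') fun i hi => (h (n, i) hi.1 hi.2).elim)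

/-- With the two separations realised, intersection fails. -/
theorem not_satisfiesIntersection
    (hside : ∀ v, v ≠ none → ∀ B ∈ fam v, ¬ sideSep.DS B ∧ ¬ sideSep.FS B)
    (hcentre : ∀ B ∈ fam none, ¬ centreSep.DS B ∧ ¬ centreSep.FS B) :
    ¬ SatisfiesIntersection (vertexMatroid hfam) pairMatroid.matroid := by
  rintro ⟨J, JM, JN, hM, hN, hJ, hdis, hcov⟩
  have hNJ : pairIndep J := hN
  have hJMi : (vertexMatroid hfam).Indep JM := hM.subset (hJ ▸ subset_union_left)
  have hJNi : pairIndep JN := fun e he h => hNJ e (hJ ▸ Or.inr he) (hJ ▸ Or.inr h)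
  have hind : ∀ v, IndF (fam v) (slice J v) := (vertexMatroid_indep hfam J).1 hM
  let W : Vertex → Prop := fun v => SpanF (fam v) (slice JM v)
  have cover : ∀ e : Elt, e ∈ JM ∨ W e.1 ∨ e ∈ JN ∨ mate e ∈ JN := by
    intro e
    have : e ∈ (vertexMatroid hfam).closure JM ∪ pairMatroid.matroid.closure JN := by
      rw [hcov, vertexMatroid_ground]; trivial
    rcases this with h | h
    · rcases mem_closure_vertexMatroid hfam hJMi h with h | h
      · exact Or.inl h
      · exact Or.inr (Or.inl h)
    · rcases mem_closure_pairMatroid hJNi h with h | h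
      · exact Or.inr (Or.inr (Or.inl h))
      · exact Or.inr (Or.inr (Or.inr h))
  by_cases hW : ∃ v, W v
  · -- a tight vertex set
    have sliceEq : ∀ v, W v → slice J v = slice JM v := by
      intro v hv
      have hsub : slice JM v ⊆ slice J v := fun p hp => hJ ▸ Or.inl hp
      by_contra hne
      exact not_indF_of_ssubset (hfam v).incomp hv (hsub.ssubset_of_ne (Ne.symm hne)) (hind v)
    have next : ∀ e : Elt, W e.1 → e ∈ J → W (mate e).1 := by
      intro e hv he
      have heM : e ∈ JM := by
        have : e.2 ∈ slice J e.1 := he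
        rw [sliceEq _ hv] at this
        exact this
      have hm : mate e ∉ J := hNJ e he
      rcases cover (mate e) with h | h | h | h
      · exact absurd (hJ ▸ Or.inl h) hm
      · exact h
      · exact absurd (hJ ▸ Or.inr h) hm
      · rw [mate_mate] at h
        exact absurd heM (fun h' => hdis.le_bot ⟨h', h⟩)
    have hF : ∀ s n, W (some (s, n)) → ¬ sideSep.FS (slice J (some (s, n))) := by
      intro s n hv
      rw [sliceEq _ hv]
      exact spanF_notF (fun B hB => (hside _ (by simp) B hB).2) hv
    have noChain : ∀ o : Ordinal.{0}, ∀ s n, W (some (s, n)) →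
        (qq (slice J (some (s, n))) false)ᶜ ∈ U →
        rho (qq (slice J (some (s, n))) false)ᶜ ≠ o := by
      intro o
      induction o using WellFoundedLT.induction with
      | _ o ih =>
        intro s n hv ha ho
        set a := qq (slice J (some (s, n))) false with hadef
        set b := qq (slice J (some (s, n))) true with hbdef
        have hFv : ¬ DSide aᶜ bᶜ := hF s n hv
        have hb : b ∈ U ∧ rho b < rho aᶜ := by
          by_contra hh
          exact hFv ⟨ha, by simpa using hh⟩
        obtain ⟨k, hk⟩ := nonempty_of_mem_U hb.1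
        obtain ⟨i, hi⟩ := nonempty_of_mem_U hk
        have hv' : W (some (s, n + 1)) := next (some (s, n), (true, k, i)) hv hi
        have hsub : qq (slice J (some (s, n + 1))) false ⊆ bᶜ :=
          qq_subset_compl fun x hx hx' => hNJ (some (s, n), (true, x)) hx' hx
        have hb' : b ⊆ (qq (slice J (some (s, n + 1))) false)ᶜ :=
          subset_compl_comm.1 hsub
        exact ih (rho (qq (slice J (some (s, n + 1))) false)ᶜ)
          (ho ▸ (rho_anti hb.1 hb').trans_lt hb.2) s (n + 1) hv'
          (Filter.mem_of_superset hb.1 hb') rfl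
    by_cases h0 : W none
    · have hc : ∃ s, qq (slice J none) s ∈ U := by
        by_contra hh
        push Not at hh
        refine spanF_notF (fun B hB => (hcentre B hB).2) h0 ?_
        rw [← sliceEq none h0]
        exact ⟨hh false, hh true⟩
      obtain ⟨s, hs⟩ := hc
      obtain ⟨k, hk⟩ := nonempty_of_mem_U hs
      obtain ⟨i, hi⟩ := nonempty_of_mem_U hk
      have hv' : W (some (s, 0)) := next (none, (s, k, i)) h0 hi
      have hsub : qq (slice J (some (s, 0))) false ⊆ (qq (slice J none) s)ᶜ :=
        qq_subset_compl fun x hx hx' => hNJ (none, (s, x)) hx' hx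
      exact noChain _ s 0 hv' (Filter.mem_of_superset hs (subset_compl_comm.1 hsub)) rfl
    · obtain ⟨v, hv⟩ := hW
      rcases v with _ | ⟨s, n⟩
      · exact h0 hv
      classical
      have hex : ∃ n, W (some (s, n)) := ⟨n, hv⟩
      have hm := Nat.find_spec hex
      have hempty : qq (slice J (some (s, Nat.find hex))) false = ∅ := by
        refine eq_empty_iff_forall_notMem.2 fun k hk => ?_
        obtain ⟨i, hi⟩ := nonempty_of_mem_U hk
        generalize hM0 : Nat.find hex = m at hi hm
        have := next (some (s, m), (false, k, i)) hm hi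
        cases m with
        | zero => exact h0 this
        | succ j => exact Nat.find_min hex (show j < Nat.find hex by omega) this
      exact noChain _ s _ hm (by rw [hempty, compl_empty]; exact Filter.univ_mem) rfl
  · -- an orientation
    push Not at hW
    have either : ∀ e : Elt, e ∈ J ↔ mate e ∉ J := by
      intro e
      refine ⟨hNJ e, fun hm => ?_⟩
      rcases cover e with h | h | h | h
      · exact hJ ▸ Or.inl h
      · exact absurd h (hW _)
      · exact hJ ▸ Or.inr h
      · exact absurd (hJ ▸ Or.inr h) hm
    have noChain : ∀ o : Ordinal.{0}, ∀ s n, qq (slice J (some (s, n))) false ∈ U →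
        rho (qq (slice J (some (s, n))) false) ≠ o := by
      intro o
      induction o using WellFoundedLT.induction with
      | _ o ih =>
        intro s n ha ho
        set a := qq (slice J (some (s, n))) false with hadef
        set b := qq (slice J (some (s, n))) true with hbdef
        have hDv : ¬ DSide a b :=
          indF_notD (σ := sideSep) (fun B hB => (hside _ (by simp) B hB).1) (hind (some (s, n)))
        have hb : bᶜ ∈ U ∧ rho bᶜ < rho a := by
          by_contra hh
          exact hDv ⟨ha, hh⟩
        have heq : qq (slice J (some (s, n + 1))) false = bᶜ :=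
          fib_compl_mem fun x => by
            have := either (some (s, n + 1), (false, x))
            exact this
        exact ih _ (ho ▸ hb.2) s (n + 1) (heq ▸ hb.1) (by rw [heq])
    have hnD : ¬ centreSep.DS (slice J none) :=
      indF_notD (fun B hB => (hcentre B hB).1) (hind none)
    obtain ⟨s, hs⟩ : ∃ s, qq (slice J none) s ∉ U := by
      by_contra hh
      push Not at hh
      exact hnD ⟨hh false, hh true⟩
    have heq : qq (slice J (some (s, 0))) false = (qq (slice J none) s)ᶜ :=
      fib_compl_mem fun x => either (some (s, 0), (false, x))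
    exact noChain _ s 0 (by rw [heq]; exact compl_mem_U.2 hs) rfl

open Cardinal in
/-- A pair of matroids on a countable set failing intersection, assuming the continuum hypothesis. -/
theorem exists_counterexample (hCH : (𝔠 : Cardinal.{0}) = ℵ₁) :
    ∃ M N : Matroid Elt, M.E = Set.univ ∧ N.E = Set.univ ∧ ¬ SatisfiesIntersection M N := by
  obtain ⟨Fs, hFs, hFs'⟩ := exists_complete hCH sideSep
  obtain ⟨Fc, hFc, hFc'⟩ := exists_complete hCH centreSep
  let fam : Vertex → Set (Set Loc) := fun v => v.elim Fc fun _ => Fs
  have hfam : ∀ v, Complete (fam v) := fun v => by cases v <;> assumption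
  refine ⟨vertexMatroid hfam, pairMatroid.matroid, vertexMatroid_ground hfam, rfl,
    not_satisfiesIntersection hfam ?_ hFc'⟩
  intro v hv
  cases v with
  | none => exact absurd rfl hv
  | some p => exact hFs'

end Vale.Agent.P068
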