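import Vale.Agent.P068.Sep
import Mathlib.SetTheory.Cardinal.Aleph
import Mathlib.SetTheory.Cardinal.Arithmetic

open Set Cardinal

namespace Vale.Agent.P068

lemma nonempty_of_mem_U {s : Set ℕ} (h : s ∈ U) : s.Nonempty :=
  Ultrafilter.nonempty_of_mem h

/-- A base of the ultrafilter. -/
def IsUBase (B : Set (Set ℕ)) : Prop := (∀ b ∈ B, b ∈ U) ∧ ∀ s ∈ U, ∃ b ∈ B, b ⊆ s

lemma isUBase_infinite {B : Set (Set ℕ)} (h : IsUBase B) : B.Infinite := by
  intro hfin
  have hm : ⋂₀ B ∈ U := (Filter.sInter_mem hfin).2 h.1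
  obtain ⟨x, hx⟩ := nonempty_of_mem_U hm
  have hc : ({x} : Set ℕ)ᶜ ∈ U := compl_mem_U.2 (finite_notMem_U (finite_singleton x))
  obtain ⟨b, hb, hbs⟩ := h.2 _ (Filter.inter_mem hm hc)
  exact (hbs (hx b hb)).2 rfl

/-- A rank on the ultrafilter, all whose initial segments fail to generate it below each member. -/
lemma exists_rank : ∃ ρ : Set ℕ → Ordinal.{0},
    (∀ a ∈ U, ∀ a' : Set ℕ, a ⊆ a' → ρ a' ≤ ρ a) ∧
    ∀ g ∈ U, ∀ c ∈ U, ∃ x ∈ U, x ⊆ g ∧ ∀ a ∈ U, a ∩ g ⊆ x → ρ c < ρ a := by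
  classical
  let Cs : Set Cardinal.{0} := {κ | ∃ B, IsUBase B ∧ #B = κ}
  have hne : Cs.Nonempty := ⟨_, {s | s ∈ U}, ⟨fun b hb => hb, fun s hs => ⟨s, hs, subset_rfl⟩⟩, rfl⟩
  obtain ⟨B, hB, hcard⟩ : sInf Cs ∈ Cs := csInf_mem hne
  have hmin : ∀ B', IsUBase B' → #B ≤ #B' := fun B' hB' =>
    hcard.le.trans (csInf_le' ⟨B', hB', rfl⟩)
  obtain ⟨r, wo, hr⟩ := Cardinal.exists_ord_eq B
  let Ss : Set ℕ → Set Ordinal.{0} := fun a => {o | ∃ b : B, Ordinal.typein r b = o ∧ (b : Set ℕ) ⊆ a}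
  have hSne : ∀ a ∈ U, (Ss a).Nonempty := by
    intro a ha
    obtain ⟨b, hb, hba⟩ := hB.2 a ha
    exact ⟨_, ⟨b, hb⟩, rfl, hba⟩
  refine ⟨fun a => sInf (Ss a), ?_, ?_⟩
  · intro a ha a' haa'
    obtain ⟨b, hb, hba⟩ := csInf_mem (hSne a ha)
    exact csInf_le' ⟨b, hb, hba.trans haa'⟩
  · intro g hg c hc
    obtain ⟨β, hβ, -⟩ := csInf_mem (hSne c hc)
    by_contra hno
    push Not at hno
    let P : Set B := {b | Ordinal.typein r b ≤ Ordinal.typein r β}
    let B' : Set (Set ℕ) := (fun b : B => (b : Set ℕ) ∩ g) '' P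
    have hB' : IsUBase B' := by
      refine ⟨?_, fun s hs => ?_⟩
      · rintro _ ⟨b, -, rfl⟩
        exact Filter.inter_mem (hB.1 _ b.2) hg
      · obtain ⟨a, ha, hax, hle⟩ := hno (s ∩ g) (Filter.inter_mem hs hg) inter_subset_right
        obtain ⟨b, hb, hba⟩ := csInf_mem (hSne a ha)
        refine ⟨_, ⟨b, ?_, rfl⟩, ?_⟩
        · show Ordinal.typein r b ≤ Ordinal.typein r β
          rw [hb, hβ]
          exact hle
        · intro i hi
          exact (hax ⟨hba hi.1, hi.2⟩).1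
    have hinf : ℵ₀ ≤ #B := Cardinal.infinite_iff.1 (isUBase_infinite hB).to_subtype
    have hP : #P < #B := by
      have hsub : P ⊆ insert β {b | r b β} := by
        intro b hb
        rcases (show Ordinal.typein r b ≤ Ordinal.typein r β from hb).lt_or_eq with h | h
        · exact Or.inr ((Ordinal.typein_lt_typein r).1 h)
        · exact Or.inl ((Ordinal.typein r).injective h)
      have hlt : #{b | r b β} < #B := by
        have h1 := Ordinal.typein_lt_type r β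
        rw [← hr, Cardinal.lt_ord] at h1
        rw [Ordinal.card_typein] at h1
        exact h1
      refine (Cardinal.mk_le_mk_of_subset hsub).trans_lt ?_
      exact (Cardinal.mk_insert_le).trans_lt
        (Cardinal.add_lt_of_lt hinf hlt (one_lt_aleph0.trans_le hinf))
    exact not_lt.2 ((hmin B' hB').trans Cardinal.mk_image_le) hP

/-- The rank on the ultrafilter. -/
noncomputable def rho : Set ℕ → Ordinal.{0} := exists_rank.choose

lemma rho_anti {a a' : Set ℕ} (ha : a ∈ U) (h : a ⊆ a') : rho a' ≤ rho a :=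
  exists_rank.choose_spec.1 a ha a' h

lemma rho_room {g c : Set ℕ} (hg : g ∈ U) (hc : c ∈ U) :
    ∃ x ∈ U, x ⊆ g ∧ ∀ a ∈ U, a ∩ g ⊆ x → rho c < rho a :=
  exists_rank.choose_spec.2 g hg c hc

/-- Forbidden pattern for a vertex away from the centre. -/
def DSide (a b : Set ℕ) : Prop := a ∈ U ∧ ¬ (bᶜ ∈ U ∧ rho bᶜ < rho a)

lemma DSide.up {a a' b b' : Set ℕ} (ha : a ⊆ a') (hb : b ⊆ b') (h : DSide a b) :
    DSide a' b' := by
  refine ⟨Filter.mem_of_superset h.1 ha, fun ⟨h1, h2⟩ => h.2 ?_⟩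
  have hc : b'ᶜ ⊆ bᶜ := compl_subset_compl.2 hb
  exact ⟨Filter.mem_of_superset h1 hc,
    ((rho_anti h1 hc).trans_lt h2).trans_le (rho_anti h.1 ha)⟩

/-- The separation at a vertex away from the centre. -/
noncomputable def sideSep : Sep where
  D := DSide
  F a b := DSide aᶜ bᶜ
  up := DSide.up
  down ha hb h := h.up (compl_subset_compl.2 ha) (compl_subset_compl.2 hb)
  disj a b h := compl_mem_U.1 h.2.1 h.1.1
  top := ⟨Filter.univ_mem, fun h => by simpa using finite_notMem_U finite_empty (by simpa using h.1)⟩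
  bot := by
    refine ⟨by rw [compl_empty]; exact Filter.univ_mem, fun h => ?_⟩
    exact finite_notMem_U finite_empty (by simpa using h.1)
  between a₀ a₁ b₀ b₁ ha hb hD hF := by
    by_cases hF0 : DSide a₀ᶜ b₀ᶜ
    swap; · exact ⟨a₀, b₀, subset_rfl, ha, subset_rfl, hb, hD, hF0⟩
    by_cases hD1 : DSide a₁ b₁
    swap; · exact ⟨a₁, b₁, ha, subset_rfl, hb, subset_rfl, hD1, hF⟩
    have hg : a₀ᶜ ∩ a₁ ∈ U := Filter.inter_mem hF0.1 hD1.1
    by_cases hb0 : b₀ ∈ U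
    · obtain ⟨x, hx, hxg, hroom⟩ := rho_room hg hb0
      have hdiff : (a₁ \ x)ᶜ ∈ U := Filter.mem_of_superset hx fun i hi h => h.2 hi
      refine ⟨a₁ \ x, b₀, fun i hi => ⟨ha hi, fun h => (hxg h).1 hi⟩, sdiff_subset, subset_rfl,
        hb, fun h => compl_mem_U.1 hdiff h.1, fun h => h.2 ⟨by simpa using hb0, ?_⟩⟩
      simpa using hroom _ hdiff (fun i hi => by
        by_contra hix
        exact hi.1 ⟨hi.2.2, hix⟩)
    · obtain ⟨x, hx, hxg, hroom⟩ := rho_room hg (compl_mem_U.2 hb0)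
      have hax : a₀ ∪ x ∈ U := Filter.mem_of_superset hx subset_union_right
      refine ⟨a₀ ∪ x, b₀, subset_union_left, union_subset ha (fun i hi => (hxg hi).2), subset_rfl,
        hb, fun h => h.2 ⟨compl_mem_U.2 hb0, hroom _ hax ?_⟩, fun h => compl_mem_U.1 h.1 hax⟩
      rintro i ⟨hi | hi, hi'⟩
      · exact absurd hi hi'.1
      · exact hi

/-- The separation at the central vertex. -/
noncomputable def centreSep : Sep where
  D a b := a ∈ U ∧ b ∈ U
  F a b := a ∉ U ∧ b ∉ U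
  up ha hb h := ⟨Filter.mem_of_superset h.1 ha, Filter.mem_of_superset h.2 hb⟩
  down ha hb h := ⟨fun h' => h.1 (Filter.mem_of_superset h' ha),
    fun h' => h.2 (Filter.mem_of_superset h' hb)⟩
  disj a b h := h.2.1 h.1.1
  top := ⟨Filter.univ_mem, Filter.univ_mem⟩
  bot := ⟨finite_notMem_U finite_empty, finite_notMem_U finite_empty⟩
  between a₀ a₁ b₀ b₁ ha hb hD hF := by
    by_cases hF0 : a₀ ∉ U ∧ b₀ ∉ U
    swap; · exact ⟨a₀, b₀, subset_rfl, ha, subset_rfl, hb, hD, hF0⟩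
    by_cases hD1 : a₁ ∈ U ∧ b₁ ∈ U
    swap; · exact ⟨a₁, b₁, ha, subset_rfl, hb, subset_rfl, hD1, hF⟩
    exact ⟨a₁, b₀, ha, subset_rfl, subset_rfl, hb, fun h => hF0.2 h.2, fun h => h.1 hD1.1⟩

end Vale.Agent.P068
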