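import Vale.Agent.P068.Family
import Mathlib.Order.Filter.Ultrafilter.Basic
import Mathlib.Order.Filter.Cofinite
import Mathlib.Data.Nat.Pairing

open Set

namespace Vale.Agent.P068

/-- The elements at one vertex: two bundles, each a square of natural numbers. -/
abbrev Loc : Type := Bool × ℕ × ℕ

/-- A fixed free ultrafilter on the natural numbers. -/
noncomputable def U : Ultrafilter ℕ := Filter.hyperfilter ℕ

lemma finite_notMem_U {s : Set ℕ} (h : s.Finite) : s ∉ U :=
  Filter.notMem_hyperfilter_of_finite h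

lemma compl_mem_U {s : Set ℕ} : sᶜ ∈ U ↔ s ∉ U :=
  Ultrafilter.compl_mem_iff_notMem

/-- A fibre of a set. -/
def fib (S : Set Loc) (c : Bool) (n : ℕ) : Set ℕ := {i | (c, n, i) ∈ S}

/-- The cells at which a set is large. -/
def qq (S : Set Loc) (c : Bool) : Set ℕ := {n | fib S c n ∈ U}

/-- Sets all whose fibres are small. -/
def Small (S : Set Loc) : Prop := ∀ c n, fib S c n ∉ U

lemma Small.subset {S T : Set Loc} (h : Small T) (hST : S ⊆ T) : Small S :=
  fun c n hn => h c n (Filter.mem_of_superset hn fun _ hi => hST hi)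

lemma Small.union {S T : Set Loc} (h : Small S) (h' : Small T) : Small (S ∪ T) := by
  intro c n hn
  rcases Ultrafilter.union_mem_iff.1 (show fib S c n ∪ fib T c n ∈ U from hn) with hs | ht
  · exact h c n hs
  · exact h' c n ht

lemma small_of_finite {S : Set Loc} (h : S.Finite) : Small S := by
  intro c n
  refine finite_notMem_U ((h.image fun p => p.2.2).subset ?_)
  intro i hi
  exact ⟨(c, n, i), hi, rfl⟩

lemma qq_subset_of_small {S T : Set Loc} (h : Small (S \ T)) (c : Bool) : qq S c ⊆ qq T c := by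
  intro n hn
  have : fib (S \ T) c n ∪ fib T c n ∈ U := by
    refine Filter.mem_of_superset hn fun i hi => ?_
    by_cases hT : (c, n, i) ∈ T
    · exact Or.inr hT
    · exact Or.inl ⟨hi, hT⟩
  exact (Ultrafilter.union_mem_iff.1 this).resolve_left (h c n)

lemma qq_mono {S T : Set Loc} (h : S ⊆ T) (c : Bool) : qq S c ⊆ qq T c :=
  fun _ hn => Filter.mem_of_superset hn fun _ hi => h hi

lemma qq_empty (c : Bool) : qq ∅ c = ∅ := by
  ext n
  simp [qq, fib]

lemma qq_univ (c : Bool) : qq univ c = univ := by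
  ext n
  simp only [qq, fib, mem_univ, setOf_true, mem_setOf_eq, iff_true]
  exact Filter.univ_mem

/-- Two classes of forbidden cell patterns, with room between them. -/
structure Sep where
  D : Set ℕ → Set ℕ → Prop
  F : Set ℕ → Set ℕ → Prop
  up : ∀ {a a' b b'}, a ⊆ a' → b ⊆ b' → D a b → D a' b'
  down : ∀ {a a' b b'}, a ⊆ a' → b ⊆ b' → F a' b' → F a b
  disj : ∀ a b, ¬ (D a b ∧ F a b)
  top : D univ univ
  bot : F ∅ ∅
  between : ∀ a₀ a₁ b₀ b₁, a₀ ⊆ a₁ → b₀ ⊆ b₁ → ¬ D a₀ b₀ → ¬ F a₁ b₁ →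
    ∃ a b, a₀ ⊆ a ∧ a ⊆ a₁ ∧ b₀ ⊆ b ∧ b ⊆ b₁ ∧ ¬ D a b ∧ ¬ F a b

/-- The first forbidden pattern, for sets of elements. -/
def Sep.DS (σ : Sep) (S : Set Loc) : Prop := σ.D (qq S false) (qq S true)

/-- The second forbidden pattern, for sets of elements. -/
def Sep.FS (σ : Sep) (S : Set Loc) : Prop := σ.F (qq S false) (qq S true)

lemma Sep.DS_mono (σ : Sep) {S T : Set Loc} (h : Small (S \ T)) (hS : σ.DS S) : σ.DS T :=
  σ.up (qq_subset_of_small h _) (qq_subset_of_small h _) hS

lemma Sep.FS_mono (σ : Sep) {S T : Set Loc} (h : Small (S \ T)) (hT : σ.FS T) : σ.FS S :=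
  σ.down (qq_subset_of_small h _) (qq_subset_of_small h _) hT

lemma Sep.exists_between (σ : Sep) {I X : Set Loc} (hIX : I ⊆ X) (hI : ¬ σ.DS I)
    (hX : ¬ σ.FS X) : ∃ B, I ⊆ B ∧ B ⊆ X ∧ ¬ σ.DS B ∧ ¬ σ.FS B := by
  obtain ⟨a, b, ha₀, ha₁, hb₀, hb₁, hD, hF⟩ :=
    σ.between _ _ _ _ (qq_mono hIX false) (qq_mono hIX true) hI hX
  let f : Bool → Set ℕ := fun c => cond c b a
  let B : Set Loc := I ∪ {p | p ∈ X ∧ p.2.1 ∈ f p.1}
  have key : ∀ c, qq I c ⊆ f c → f c ⊆ qq X c → qq B c = f c := by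
    intro c h0 h1
    ext n
    by_cases hn : n ∈ f c
    · simp only [hn, iff_true]
      refine Filter.mem_of_superset (h1 hn) fun i hi => Or.inr ⟨hi, hn⟩
    · simp only [hn, iff_false]
      intro hB
      apply hn
      apply h0
      refine Filter.mem_of_superset hB fun i hi => ?_
      rcases hi with hi | ⟨-, hi⟩
      · exact hi
      · exact absurd hi hn
  refine ⟨B, subset_union_left, union_subset hIX fun p hp => hp.1, ?_, ?_⟩
  · simpa [Sep.DS, key false ha₀ ha₁, key true hb₀ hb₁, f] using hD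
  · simpa [Sep.FS, key false ha₀ ha₁, key true hb₀ hb₁, f] using hF

/-! ### Small sets meeting countably many infinite sets -/

lemma exists_small_pieces (h : ℕ → Set Loc) (hinf : ∀ n, (h n).Infinite) :
    ∃ (x : ℕ → Loc) (H : Set Loc), Function.Injective x ∧ Small H ∧
      (∀ n i, x (Nat.pair n i) ∈ h n) ∧ H ⊆ range x ∧
      ∀ n, {i | x (Nat.pair n i) ∈ H}.Infinite := by
  classical
  let g : Loc → ℕ := fun p => Nat.pair (cond p.1 1 0) p.2.1
  have ginj : ∀ {p p' : Loc}, g p = g p' → p.1 = p'.1 ∧ p.2.1 = p'.2.1 := by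
    intro p p' hp
    obtain ⟨h1, h2⟩ := Nat.pair_eq_pair.1 hp
    refine ⟨?_, h2⟩
    revert h1; cases p.1 <;> cases p'.1 <;> simp
  let Conc : ℕ → Prop := fun n => ∃ k, {p ∈ h n | g p = k}.Infinite
  let kk : ℕ → ℕ := fun n => if hc : Conc n then hc.choose else 0
  let T : ℕ → Set Loc := fun m =>
    if Conc m.unpair.1 then {p ∈ h m.unpair.1 | g p = kk m.unpair.1}
    else {p ∈ h m.unpair.1 | m ≤ g p}
  have hT : ∀ m, (T m).Infinite := by
    intro m
    by_cases hc : Conc m.unpair.1
    · simpa [T, hc, kk] using hc.choose_spec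
    · simp only [T, hc, if_false]
      intro hfin
      refine hinf m.unpair.1 ?_
      have hlow : (⋃ k ∈ Iio m, {p ∈ h m.unpair.1 | g p = k}).Finite :=
        (finite_Iio m).biUnion fun k _ => not_infinite.1 fun hk => hc ⟨k, hk⟩
      refine (hfin.union hlow).subset fun p hp => ?_
      by_cases hle : m ≤ g p
      · exact Or.inl ⟨hp, hle⟩
      · exact Or.inr (mem_biUnion (show g p ∈ Iio m from not_le.1 hle) ⟨hp, rfl⟩)
  have pick : ∀ m (s : Finset Loc), ∃ p ∈ T m, p ∉ s :=
    fun m s => (hT m).exists_notMem_finset s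
  choose sel hsel hselne using pick
  let pre : ℕ → Finset Loc := fun m => Nat.rec ∅ (fun j s => insert (sel j s) s) m
  let x : ℕ → Loc := fun m => sel m (pre m)
  have hmem : ∀ {j m}, j < m → x j ∈ pre m := by
    intro j m hjm
    induction m with
    | zero => omega
    | succ m ih =>
      show x j ∈ insert (sel m (pre m)) (pre m)
      rcases Nat.lt_succ_iff_lt_or_eq.1 hjm with hl | rfl
      · exact Finset.mem_insert_of_mem (ih hl)
      · exact Finset.mem_insert_self _ _
  have xinj : Function.Injective x := by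
    intro j m hjm
    rcases lt_trichotomy j m with hl | he | hl
    · have hh' : x m ∈ pre m := hjm ▸ (hmem hl : x j ∈ pre m)
      exact absurd hh' (hselne m (pre m))
    · exact he
    · have hh' : x j ∈ pre j := by rw [hjm]; exact hmem hl
      exact absurd hh' (hselne j (pre j))
  have hxT : ∀ m, x m ∈ T m := fun m => hsel m (pre m)
  have hxh : ∀ m, x m ∈ h m.unpair.1 := by
    intro m
    have := hxT m
    by_cases hc : Conc m.unpair.1 <;> simp only [T, hc, if_true, if_false] at this <;> exact this.1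
  let A : ℕ → Bool → Set Loc := fun k p =>
    x '' {m | Conc m.unpair.1 ∧ kk m.unpair.1 = k ∧ m.unpair.2.bodd = p}
  let par : ℕ → Bool := fun k =>
    if ∃ c n, g (c, n, 0) = k ∧ fib (A k false) c n ∈ U then true else false
  have hpar : ∀ c n, fib (A (g (c, n, 0)) (par (g (c, n, 0)))) c n ∉ U := by
    intro c n hn
    by_cases hp : ∃ c' n', g (c', n', 0) = g (c, n, 0) ∧ fib (A (g (c, n, 0)) false) c' n' ∈ U
    · have : par (g (c, n, 0)) = true := by simp only [par, hp, if_true]
      rw [this] at hn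
      obtain ⟨c', n', he, hf⟩ := hp
      obtain ⟨rfl, rfl⟩ := ginj he
      have hi := Filter.inter_mem hn hf
      refine finite_notMem_U (finite_empty.subset ?_) hi
      rintro i ⟨⟨m, ⟨-, -, hm⟩, hxm⟩, ⟨m', ⟨-, -, hm'⟩, hxm'⟩⟩
      obtain rfl := xinj (hxm.trans hxm'.symm)
      simp [hm] at hm'
    · have : par (g (c, n, 0)) = false := by simp only [par, hp, if_false]
      rw [this] at hn
      exact hp ⟨c, n, rfl, hn⟩
  let G : Set ℕ := {m | Conc m.unpair.1 → m.unpair.2.bodd = par (kk m.unpair.1)}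
  refine ⟨x, x '' G, xinj, ?_, fun n i => by simpa using hxh (Nat.pair n i),
    image_subset_range _ _, fun n => ?_⟩
  · intro c n hn
    let k := g (c, n, 0)
    have hcov : fib (x '' G) c n ⊆
        (fun m => (x m).2.2) '' Iic k ∪ fib (A k (par k)) c n := by
      rintro i ⟨m, hm, hxm⟩
      have hg : g (x m) = k := by rw [hxm]
      by_cases hc : Conc m.unpair.1
      · have := hxT m
        simp only [T, hc, if_true] at this
        have hkk : kk m.unpair.1 = k := this.2.symm.trans hg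
        exact Or.inr ⟨m, ⟨hc, hkk, hkk ▸ hm hc⟩, hxm⟩
      · have := hxT m
        simp only [T, hc, if_false] at this
        exact Or.inl ⟨m, hg ▸ this.2, by simp only [hxm]⟩
    rcases Ultrafilter.union_mem_iff.1 (Filter.mem_of_superset hn hcov) with h1 | h2
    · exact finite_notMem_U ((finite_Iic k).image _) h1
    · exact hpar c n h2
  · refine Set.Infinite.mono (s := range fun j => cond (par (kk n)) (2 * j + 1) (2 * j)) ?_ ?_
    · rintro i ⟨j, rfl⟩
      refine ⟨_, ?_, rfl⟩
      intro _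
      simp only [Nat.unpair_pair]
      cases par (kk n) <;> simp
    · refine infinite_range_of_injective fun j j' hj => ?_
      revert hj; cases par (kk n) <;> simp

lemma exists_small_meeting {G : Set Loc} (ℋ 𝒦 : Set (Set Loc)) (hℋ : ℋ.Countable)
    (h𝒦 : 𝒦.Countable) (hi : ∀ h ∈ ℋ, h.Infinite) (ki : ∀ k ∈ 𝒦, k.Infinite)
    (hG : ∀ h ∈ ℋ, h ⊆ G) (kG : ∀ k ∈ 𝒦, k ⊆ G) :
    ∃ H K : Set Loc, H ⊆ G ∧ K ⊆ G ∧ Disjoint H K ∧ Small H ∧ Small K ∧
      (∀ h ∈ ℋ, (H ∩ h).Infinite) ∧ (∀ k ∈ 𝒦, (K ∩ k).Infinite) := by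
  obtain ⟨f, hf⟩ := (hℋ.insert univ).exists_eq_range (insert_nonempty _ _)
  obtain ⟨f', hf'⟩ := (h𝒦.insert univ).exists_eq_range (insert_nonempty _ _)
  let hh : ℕ → Set Loc := fun n => if n.bodd then f' n.div2 else f n.div2
  have hinf : ∀ n, (hh n).Infinite := by
    intro n
    by_cases hn : n.bodd
    · have : f' n.div2 ∈ insert univ 𝒦 := hf' ▸ mem_range_self _
      simp only [hh, hn, if_true]
      rcases this with e | e
      · rw [e]; exact infinite_univ
      · exact ki _ e
    · have : f n.div2 ∈ insert univ ℋ := hf ▸ mem_range_self _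
      simp only [hh, hn, if_false, Bool.false_eq_true]
      rcases this with e | e
      · rw [e]; exact infinite_univ
      · exact hi _ e
  obtain ⟨x, H, xinj, hs, hx, -, hmeet⟩ := exists_small_pieces hh hinf
  let P : Bool → Set Loc := fun p => G ∩ (H ∩ x '' {m | m.unpair.1.bodd = p})
  have meet : ∀ n, hh n ⊆ G → (P n.bodd ∩ hh n).Infinite := by
    intro n hn
    refine Set.Infinite.mono ?_ ((hmeet n).image (f := fun i => x (Nat.pair n i))
      (fun i _ j _ hij => (Nat.pair_eq_pair.1 (xinj hij)).2))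
    rintro _ ⟨i, hi', rfl⟩
    exact ⟨⟨hn (hx n i), hi', ⟨_, by simp, rfl⟩⟩, hx n i⟩
  refine ⟨P false, P true, inter_subset_left, inter_subset_left, ?_,
    hs.subset fun _ hp => hp.2.1, hs.subset fun _ hp => hp.2.1, ?_, ?_⟩
  · rw [Set.disjoint_left]
    rintro p ⟨-, -, m, hm, rfl⟩ ⟨-, -, m', hm', he⟩
    obtain rfl := xinj he
    simp_all
  · intro h hh'
    obtain ⟨j, rfl⟩ : h ∈ range f := hf ▸ mem_insert_of_mem _ hh'
    have := meet (2 * j) (by simpa [hh, Nat.div2_val] using hG _ hh')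
    simpa [hh, Nat.div2_val] using this
  · intro k hk
    obtain ⟨j, rfl⟩ : k ∈ range f' := hf' ▸ mem_insert_of_mem _ hk
    have e : (2 * j + 1) / 2 = j := by omega
    have := meet (2 * j + 1) (by simpa [hh, Nat.div2_val, e] using kG _ hk)
    simpa [hh, Nat.div2_val, e] using this

end Vale.Agent.P068
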